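import Vale.Agent.P354K.Pack
import Vale.Agent.P354KD.Dec
import Vale.Agent.P354KN.Main
import Vale.Agent.P354KS.Est

/-!
The deformation theorem in the coordinates z.
-/

open scoped ContDiff
open MeasureTheory Set Filter Topology

namespace Vale.Agent.P354KZ

open Vale.Agent.P354H (X3 e pd pdl Sb pd_sm pdl_sm)
open Vale.Agent.P354K
open Vale.Agent.P354KS (dn ex_step pg_pos)
open Vale.Agent.P354KD (Pol.cg Pol.smul Pol.sum)

theorem dec_w (α : List (Fin 3)) (N : ℕ) : ∀ W, LW W →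
    (∀ n : ℕ, ∃ C, 0 ≤ C ∧ ∀ z, (1 + ‖z‖ ^ 2) ^ n ≤ C * W z) → ∃ C, 0 ≤ C ∧ ∀ g c,
      Nw W (α.length + 3) g c → ∀ z, |Dl α g z| * (1 + ‖z‖ ^ 2) ^ N ≤ C * c := by
  induction α with
  | nil =>
    intro W hW hp
    obtain ⟨A, a0, hA⟩ := hp N
    obtain ⟨B, b0, hB⟩ := sobw W hW
    refine ⟨A * B, by positivity, fun g c h z => ?_⟩
    calc _ ≤ |g z| * (A * W z) := mul_le_mul_of_nonneg_left (hA z) (abs_nonneg _)
      _ = A * (W z * |g z|) := by ring
      _ ≤ A * (B * c) := mul_le_mul_of_nonneg_left (hB 0 g c h [] le_rfl z) a0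
      _ = _ := by ring
  | cons j α ih =>
    intro W hW hp
    obtain ⟨K, hK⟩ := ex_step
    have l : LW fun z => ∏ i, gz i z := by
      simp only [Fin.prod_univ_three]
      exact ((lw_gz 0).mul (lw_gz 1)).mul (lw_gz 2)
    obtain ⟨C, c0, hC⟩ := ih (dn W) (hW.mul l.inv) fun n => (hp (n + 3)).imp fun A h =>
      ⟨h.1, fun z => by
        rw [dn, ← mul_assoc, ← div_eq_mul_inv, le_div_iff₀ (pg_pos z)]
        refine le_trans ?_ (h.2 z)
        rw [pow_add]
        refine mul_le_mul_of_nonneg_left ?_ (by positivity)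
        simpa using Finset.prod_le_prod (s := Finset.univ) (fun i _ => (gz_pos i z).le)
          fun i _ => gz_le i z⟩
    refine ⟨C * K (α.length + 3), mul_nonneg c0 (hK.pos _), fun g c h z => ?_⟩
    rw [mul_assoc]
    exact hC _ _ (hK.nw (some j) hW.cont h) z

theorem dl_out (α : List (Fin 3)) {K : Set X3} (hK : IsClosed K) {f g : X3 → ℝ} (hf : Sm f)
    (hg : Sm g) (h : ∀ z, z ∉ K → f z = g z) (z : X3) (hz : z ∉ K) : Dl α f z = Dl α g z := by
  have := Dl_supp α hK (f := fun y => f y - g y) (fun y hy => by rw [h y hy, sub_self]) z hz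
  rwa [Dl_sub α hf hg, sub_eq_zero] at this

theorem unif {ι P : Type} [Fintype ι] {f : ι → List (Fin 3) → P → X3 → ℝ}
    {a : List (Fin 3) → P → ℝ} (ha : ∀ α r, 0 ≤ a α r)
    (h : ∀ i α, ∃ C, 0 ≤ C ∧ ∀ r z, |f i α r z| ≤ C * a α r) (m : ℕ) :
    ∃ C, 0 ≤ C ∧ ∀ α : List (Fin 3), α.length ≤ m → ∀ i r z, |f i α r z| ≤ C * a α r := by
  obtain ⟨C, hC⟩ := words_bound (F := fun α C => 0 ≤ C ∧ ∀ i r z, |f i α r z| ≤ C * a α r)
    (fun α a b hab h => ⟨h.1.trans hab, fun i r z => (h.2 i r z).trans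
      (mul_le_mul_of_nonneg_right hab (ha α r))⟩) (fun α => by
      choose C c0 hC using fun i => h i α
      exact ⟨∑ i, C i, Finset.sum_nonneg fun i _ => c0 i, fun i r z => (hC i r z).trans
        (mul_le_mul_of_nonneg_right (Finset.single_le_sum (fun i _ => c0 i) (Finset.mem_univ i))
          (ha α r))⟩) m
  exact ⟨C, (hC [] (by simp)).1, fun α hα => (hC α hα).2⟩

variable {P : Type} {jb : P → Jt → X3 → ℝ} {c : Jt → Jt → P → X3 → ℝ}

theorem pol_QQ (hc : Cf jb c) {R : Eq4 → P → X3 → (Jt → ℝ) → ℝ} (hR : ∀ k, Pol 3 (R k)) (k : Eq4) :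
    Pol 2 (QQ jb c R k) := by
  refine Pol.add ?_ ((hR k).mono (by omega))
  have v2 : ∀ x y, Pol 2 fun (_ : P) (_ : X3) v => v x * v y := fun x y => (Pol.var x).mul (.var y)
  cases k with
  | none =>
    refine Pol.cg ((Pol.smul ((P354KW.ud_det hc.base).pow 2).neg (Pol.sum Finset.univ fun a =>
      Pol.sum Finset.univ fun b => Pol.sum Finset.univ fun c => Pol.sum Finset.univ fun d =>
        Pol.smul (P354KW.ud_parc hc.base a b c d) (v2 (.p a b) (.p c d)))).add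
      (Pol.sum Finset.univ fun x => Pol.sum Finset.univ fun y => Pol.smul (hc.ud x y) (v2 x y)))
      fun r z v => ?_
    simp only [Q2, qf, P354KW.par_eq, Finset.mul_sum, neg_mul, mul_assoc, pm, Matrix.of_apply,
      Finset.sum_neg_distrib, mul_left_comm (v _)]
  | some a =>
    refine Pol.cg (Pol.sum Finset.univ fun b => Pol.sum Finset.univ fun c =>
      ((v2 (.dh b a c) (.p c b)).add (v2 (.h a c) (.dp b c b))).add
        (Pol.smul (ud_c (-1 / 2)) (v2 (.p b c) (.dh a b c)))) fun r z v => ?_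
    simp only [Q2, PM]
    exact Finset.sum_congr rfl fun _ _ => Finset.sum_congr rfl fun _ _ => by ring

theorem PM_add (a : Fin 3) (v w : Jt → ℝ) :
    PM a (v + w) (v + w) = PM a v v + (PM a v w + PM a w v) + PM a w w := by
  simp only [PM, Pi.add_apply, ← Finset.sum_add_distrib]
  exact Finset.sum_congr rfl fun _ _ => Finset.sum_congr rfl fun _ _ => by ring

theorem corez (hx : XPK) (hs : SOL) : COREZ := by
  intro B hB P l jb K0 K js jT χ π lam m hb h0 hK0 hK hw hcv p1 p2 p3 hl hlam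
  obtain ⟨lc, c, R, s1, s2, s3, s4, s5⟩ := P354KD.dec B hB P jb hb
  have hc : Cf jb c := ⟨hb, s2, s4⟩
  let RR : Eq4 → P → X3 → (Jt → ℝ) → ℝ := fun k => Option.casesOn k R fun _ _ _ _ => 0
  have hR : ∀ k, Pol 3 (RR k) := fun k => by
    cases k with
    | none => exact s3
    | some a => exact .zero 3
  obtain ⟨z0, hz0⟩ := hw.ne
  obtain ⟨ρ, ρ0, hρ⟩ := Metric.nhds_basis_closedBall.mem_iff.1
    (hw.sm.continuous.continuousAt.eventually_ne hz0)
  obtain ⟨ψ, E, C0, C, hψ, hE, c0, hC, hsol⟩ := hs P jb lc hb s1 z0 ρ ρ0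
  obtain ⟨M, hM⟩ : ∃ M, M = 3 * (m + 3) + 31 := ⟨_, rfl⟩
  obtain ⟨X0, w, X, q1, q2, q3, q4, q5⟩ := hx P l jb lc c RR K0 K _ js jT χ π lam ψ E M hc s1 hR hK0
    hK hw hcv p1 p2 p3 hl hlam hψ Metric.isClosed_closedBall (fun z hz => hρ hz) hE (by omega)
  have l0 : ∀ r, 0 < lam r := fun r => one_pos.trans_le (hl r)
  have zp : ∀ r (i : ℤ), 0 ≤ lam r ^ i := fun r i => (zpow_pos (l0 r) i).le
  obtain ⟨C1, h1⟩ := P354KN.nl2 P l lc _ ψ E C0 C (K0 ∪ K) _ lam _ _ (m + 3) s1.ud (pol_QQ hc hR) hψ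
    (fun s => ⟨(hE s).1, fun z hz => (hE s).2 z fun h => hρ h
      (hw.supp z fun h => hz (Or.inr h)).1⟩) c0 hC hsol (hK0.union hK)
    (fun r => zpow_pos (l0 r) _) hl (hlam.inv_tendsto_atTop.congr fun r => by
      rw [← zpow_natCast, ← zpow_add₀ (l0 r).ne', Pi.inv_apply, ← zpow_neg_one]
      congr 1
      omega) q1
  obtain ⟨A1, a1, b1⟩ := unif (fun α r => zp r (α.length + 1)) (fun x α => (q2 x α).2.2.2) m
  obtain ⟨A2, a2, b2⟩ := unif (ι := (Eq4 × Fin 4) × Jt) (fun α r => zp r (α.length + 1))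
    (fun p α => (q3 p.1 p.2 α).2.2.2) m
  obtain ⟨A3, a3, b3⟩ := unif (ι := Fin 3 × Fin 3) (fun α r => zp r _)
    (fun p α => osc_bd hl (osc_Dl (n := 2) hl hK0 (q4.oscP hK0 hl (.h p.1 p.2) trivial) α)) m
  obtain ⟨A4, a4, b4⟩ := unif (ι := Fin 3 × Fin 3) (fun α r => zp r _)
    (fun p α => osc_bd hl (osc_Dl hl hK0 (q4.p p.1 p.2) α)) m
  have dw := fun α N => dec_w α N _ hψ.ww (poly_le_ww hψ)
  obtain ⟨A5, b5⟩ := words_bound (F := fun α C => 0 ≤ C ∧ ∀ g c, Nw (ww ψ) (α.length + 3) g c →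
      ∀ z, |Dl α g z| ≤ C * c) (fun α a b hab h => ⟨h.1.trans hab, fun g c H z => (h.2 g c H z).trans
      (mul_le_mul_of_nonneg_right hab H.nonneg)⟩) (fun α => by simpa using dw α 0) m
  have a5 := (b5 [] (by simp)).1
  refine ⟨M + 1, A1 + 16 * A2 + A3 + A4 + A5 * |C1|, ?_⟩
  filter_upwards [h1] with r ⟨t, v, r1, r2, r3, r4, r5⟩
  have e0 := l0 r
  have sm0 : ∀ x, Sm (X0 r x) := fun x => (q2 x).bz.1 r
  have sm1 : ∀ s x, Sm (X s r x) := fun s x => (q3 s x).bz.1 r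
  obtain ⟨p, hp⟩ : ∃ p, p = pk (scl (lam r ^ (-M : ℤ)) (X0 r))
    (fun s => scl (lam r ^ (-M : ℤ)) (X s r)) t := ⟨_, rfl⟩
  rw [← hp] at r5
  have pa : Adm p := by
    have : ∀ s : Finset (Eq4 × Fin 4), Adm fun x z => ∑ i ∈ s,
        scl (t i) (scl (lam r ^ (-M : ℤ)) (X i r)) x z := fun s => by
      induction s using Finset.induction_on with
      | empty =>
        refine (congrArg Adm ?_).mp (adm_scl (q1.adm0 r) 0)
        funext x z
        simp [scl]
      | insert i s hi ih =>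
        simp only [Finset.sum_insert hi]
        exact P354KW.adm_add (adm_scl (q1.admt r i) _) ih
    rw [hp]
    exact P354KW.adm_add (q1.adm0 r) (this _)
  have pd1 : ∀ α x z, Dl α (p x) z = lam r ^ (-M : ℤ) * Dl α (X0 r x) z +
      ∑ s, t s * (lam r ^ (-M : ℤ) * Dl α (X s r x) z) := fun α x z => by
    have k : ∀ s, Sm fun z => lam r ^ (-M : ℤ) * X s r x z := fun s => contDiff_const.mul (sm1 s x)
    have : p x = fun z => lam r ^ (-M : ℤ) * X0 r x z +
        ∑ s, t s * (lam r ^ (-M : ℤ) * X s r x z) := by rw [hp]; rfl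
    rw [this, Dl_add α (contDiff_const.mul (sm0 x)) (ContDiff.sum fun s _ => contDiff_const.mul (k s)),
      Dl_cmul α _ (sm0 x), Dl_sum α _ fun s => contDiff_const.mul (k s)]
    simp only [fun s => Dl_cmul α (t s) (k s), fun s => Dl_cmul α (lam r ^ (-M : ℤ)) (sm1 s x)]
  have da : ∀ α x z, Dl α ((p + v) x) z = Dl α (p x) z + Dl α (v x) z := fun α x z =>
    congrFun (Dl_add α (pa.sm x) (r2.sm x)) z
  refine ⟨p + v, P354KW.adm_add pa r2, fun k z => ?_, fun x α n => ?_, fun α hα z => ?_⟩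
  · have k1 := r5 k z
    have k2 := h0 r k z
    cases k with
    | none =>
      simp only [PC] at k2 ⊢
      rw [s5, k2]
      refine Eq.trans ?_ k1
      simp only [Lin, QQ, Q2, RR, P354KW.Gm, at']
      ring
    | some a =>
      simp only [PC] at k2 ⊢
      rw [PM_add, k2, ← s1.mom]
      refine Eq.trans ?_ k1
      simp only [Lin, QQ, Q2, RR, at']
      ring
  · obtain ⟨D1, -, d1⟩ := dw α n
    obtain ⟨D2, d2⟩ := r3 x (α.length + 3)
    obtain ⟨D3, d3⟩ := (hK0.union hK).exists_bound_of_continuousOn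
      (f := fun z => |Dl α (p x) z| * (1 + ‖z‖ ^ 2) ^ n)
      ((Dl_sm α (pa.sm x)).continuous.abs.mul (by fun_prop)).continuousOn
    refine ⟨|D3| + D1 * D2, fun z => ?_⟩
    have k1 : |Dl α (p x) z| * (1 + ‖z‖ ^ 2) ^ n ≤ |D3| := by
      by_cases hz : z ∈ K0 ∪ K
      · exact (le_abs_self _).trans ((d3 z hz).trans (le_abs_self _))
      · rw [Dl_supp α (hK0.union hK).isClosed (fun y hy => by
          rw [hp]
          simp only [pk, (q1.supp r x y hy).1, (q1.supp r x y hy).2, mul_zero,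
            Finset.sum_const_zero, add_zero]) z hz]
        simp
    rw [da]
    refine (mul_le_mul_of_nonneg_right (abs_add_le _ _) (by positivity)).trans ?_
    rw [add_mul]
    exact add_le_add k1 (d1 _ _ d2 z)
  have pw : ∀ {a : ℝ} {i j : ℤ}, 0 ≤ a → i ≤ j → a * lam r ^ i ≤ a * lam r ^ j := fun h h' =>
    mul_le_mul_of_nonneg_left (zpow_le_zpow_right₀ (hl r) h') h
  have v1 : ∀ x (i : ℤ), -(M + 3 : ℤ) ≤ i → |Dl α (v x) z| ≤ A5 * |C1| * lam r ^ i := fun x i hi => by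
    refine ((b5 α hα).2 _ _ ((r4 x).low (by omega)) z).trans ?_
    rw [← zpow_natCast, ← zpow_natCast, ← zpow_mul, mul_assoc, ← zpow_add₀ e0.ne', mul_assoc]
    exact mul_le_mul_of_nonneg_left ((mul_le_mul_of_nonneg_right (le_abs_self _) (zp r _)).trans
      (pw (abs_nonneg _) (by push_cast; omega))) a5
  have a6 : 0 ≤ A5 * |C1| := by positivity
  refine ⟨fun x => ?_, fun hz a b => ?_⟩
  · have k : ∀ {u A : ℝ}, 0 ≤ A → |u| ≤ A * lam r ^ (α.length + 1 : ℤ) →
        |lam r ^ (-M : ℤ) * u| ≤ A * lam r ^ (-1 : ℤ) := fun h h' => by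
      rw [abs_mul, abs_of_nonneg (zp r _)]
      refine (mul_le_mul_of_nonneg_left h' (zp r _)).trans ?_
      rw [mul_left_comm, ← zpow_add₀ e0.ne']
      exact pw h (by omega)
    have k1 := k a1 (b1 α hα x r z)
    have k2 : |∑ s, t s * (lam r ^ (-M : ℤ) * Dl α (X s r x) z)| ≤ 16 * (A2 * lam r ^ (-1 : ℤ)) :=
      (Finset.abs_sum_le_sum_abs _ _).trans ((Finset.sum_le_sum
        (g := fun _ => A2 * lam r ^ (-1 : ℤ)) fun s _ => by
        rw [abs_mul]
        exact (mul_le_of_le_one_left (abs_nonneg _) ((norm_le_pi_norm t s).trans r1)).trans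
          (k a2 (b2 α hα (s, x) r z))).trans (by simp))
    have k3 := v1 x (-1) (by omega)
    have k4 := mul_nonneg (add_nonneg a3 a4) (zp r (-1))
    rw [da, pd1, div_eq_mul_inv, ← zpow_neg_one]
    refine (abs_add_three _ _ _).trans ?_
    linarith
  have po : ∀ x y, y ∉ K → p x y = lam r ^ (-(M + 1) : ℤ) * w r x y := fun x y hy => by
    rw [hp]
    simp only [pk, scl, q5 r x y hy, fun s => (q3 s x).bz.2.1 r y hy, mul_zero,
      Finset.sum_const_zero, add_zero]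
    rw [← mul_assoc, ← zpow_neg_one, ← zpow_add₀ e0.ne', neg_add]
  have k : ∀ {u u' A : ℝ} {i : ℤ} {j : ℕ}, 0 ≤ A → A ≤ A1 + 16 * A2 + A3 + A4 → |u| ≤ A * lam r ^ i →
      -(M + 1 : ℤ) + i = n0 α - j → |u'| ≤ A5 * |C1| * lam r ^ (n0 α - j : ℤ) →
      |lam r ^ (-(M + 1) : ℤ) * u + u'| ≤
        (A1 + 16 * A2 + A3 + A4 + A5 * |C1|) * lam r ^ n0 α / lam r ^ j := fun {u u' A i j} h h' k1 k2 k3 => by
    have k4 := mul_le_mul_of_nonneg_left k1 (zp r (-(M + 1)))
    rw [mul_left_comm, ← zpow_add₀ e0.ne', k2, ← abs_of_nonneg (zp r (-(M + 1))), ← abs_mul] at k4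
    have k5 := mul_le_mul_of_nonneg_right h' (zp r (n0 α - j))
    rw [mul_div_assoc, ← zpow_natCast, ← zpow_natCast, ← zpow_sub₀ e0.ne']
    refine (abs_add_le _ _).trans ?_
    linarith
  constructor
  · have sw := q4.adm r |>.sm (.h a b)
    rw [da, dl_out α hK.isClosed (pa.sm _) (contDiff_const.mul sw) (po _) z hz, Dl_cmul α _ sw]
    exact k a3 (by linarith) (b3 α hα (a, b) r z) (by simp [n0]; ring)
      (v1 _ _ (by push_cast; omega))
  · have sw := P354KW.sm (q4.p a b) r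
    rw [dl_out α hK.isClosed (f := fun y => (p + v) (.p a b) y -
      π r y a b * Real.cos (lam r * yc 0 y) / lam r ^ (M + 1)) (g := fun y => lam r ^ (-(M + 1) : ℤ) * (w r (.p a b) y -
      π r y a b * Real.cos (lam r * yc 0 y)) + v (.p a b) y) (((pa.sm _).add (r2.sm _)).sub
        ((((p1 a b).1.1 r).mul (contDiff_const.mul (yc_sm 0)).cos).div_const _))
      ((contDiff_const.mul sw).add (r2.sm _)) (fun y hy => by
        simp only [Pi.add_apply, po _ y hy, zpow_neg, ← Nat.cast_add_one, zpow_natCast]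
        ring) z hz, Dl_add α (contDiff_const.mul sw) (r2.sm _), Dl_cmul α _ sw]
    exact k a4 (by linarith) (b4 α hα (a, b) r z) (by simp [n0]; ring)
      (v1 _ _ (by push_cast; omega))

end Vale.Agent.P354KZ
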